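import Mathlib
import Vale.Agent.P097.Bdl.B3
import Vale.Agent.P097.Bdl.B4

namespace Vale.Agent.Results.P097.SmoothTables

open Vale.Agent.P097 Vale.Agent.P097.Cusp
open scoped ContDiff

/-- Four results on the near-boundary Birkhoff conjecture for tables with smooth boundary:
a table which is integrable near the boundary has a real-analytic boundary and is determined by
any arc; on a line of support functions only countably many tables are integrable near the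
boundary; finiteness of rational leaves on lines of analytic tables; tables whose support
function has nonnegative cosine coefficients. -/
theorem result :
    (∀ h : ℝ → ℝ, SmoothTable h →
      ((∃ η > 0, Collar h η) ∨ ∃ q₀ : ℕ, ∀ q ≥ q₀, ∃ f, RatLeaf h q f) →
        IsTable h ∧ ∀ e : ℝ → ℝ, (∀ x, AnalyticAt ℝ e x) → ∀ a b : ℝ, a < b →
          (∀ x ∈ Set.Ioo a b, h x = e x) → h = e) ∧
    (∀ h₀ g : ℝ → ℝ, SmoothTable h₀ → (∀ x, g (x + 2 * Real.pi) = g x) →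
      (¬ ∃ c : ℝ, ∀ x, g x + deriv (deriv g) x = c * (h₀ x + deriv (deriv h₀) x)) →
      (∀ η > 0, {s : ℝ | SmoothTable (fun x => h₀ x + s * g x) ∧
        Collar (fun x => h₀ x + s * g x) η}.Finite) ∧
      {s : ℝ | SmoothTable (fun x => h₀ x + s * g x) ∧
        ((∃ η > 0, Collar (fun x => h₀ x + s * g x) η) ∨
          ∃ q₀ : ℕ, ∀ q ≥ q₀, ∃ f, RatLeaf (fun x => h₀ x + s * g x) q f)}.Countable) ∧
    (∀ h₀ g : ℝ → ℝ, IsTable h₀ → (∀ x, AnalyticAt ℝ g x) →
      (∀ x, g (x + 2 * Real.pi) = g x) →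
      (¬ ∃ c : ℝ, ∀ x, g x + deriv (deriv g) x = c * (h₀ x + deriv (deriv h₀) x)) →
      (∃ q₀ : ℕ, ∀ q ≥ q₀, {s : ℝ | IsTable (fun x => h₀ x + s * g x) ∧
        ∃ f, RatLeaf (fun x => h₀ x + s * g x) q f}.Finite) ∧
      {s : ℝ | IsTable (fun x => h₀ x + s * g x) ∧
        ∀ N : ℕ, ∃ q ≥ N, ∃ f, RatLeaf (fun x => h₀ x + s * g x) q f}.Countable) ∧
    (∀ (b p q β : ℝ) (a : ℕ → ℝ) (h : ℝ → ℝ), (∀ k, 0 ≤ a k) → (∃ k, a k ≠ 0) →
      (∀ R : ℝ, Summable fun k : ℕ => a k * Real.exp (R * k)) →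
      (∀ ψ, h ψ = b + p * Real.cos ψ + q * Real.sin ψ
        + ∑' k : ℕ, a k * Real.cos (((k + 2 : ℕ) : ℝ) * (ψ - β))) → IsTable h →
        (∀ η > 0, ¬ Collar h η) ∧
        ∃ N ≥ 1, ∃ m₀ : ℕ, ∀ m ≥ m₀, ∀ f, ¬ RatLeaf h (2 * m * N) f) := by
  refine ⟨?_, ?_, ?_, ?_⟩
  · intro h H hc
    exact ⟨regularity H hc, fun e he a b hab heq => arc_unique H hc he hab heq⟩
  · intro h₀ g H0 hpg hnc
    exact smooth_lines H0 hpg hnc
  · intro h₀ g H0 hg hpg hnc
    obtain ⟨m1, -, m3⟩ := main_all H0 hg hpg hnc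
    refine ⟨m1, m3.mono ?_⟩
    rintro s ⟨h1, h2⟩
    exact ⟨h1, Or.inr h2⟩
  · intro b p q β a h h0 hk hs hh HT
    have e : h = gser b p q β a := funext hh
    rw [e] at HT ⊢
    refine gser_leaf p q β (fun R => ?_) h0 hk HT
    refine (hs R).congr (fun k => ?_)
    rw [abs_of_nonneg (h0 k)]

end Vale.Agent.Results.P097.SmoothTables
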